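import Mathlib

/-!
Fact (2) of the direct proof of the one-dimensional core inequality of statement S0423
(helper56): for an antitone integrable `S ≥ 0` on the half-line satisfying the four-point
inequality, `b * (a - b) ≤ a * d` where `a = ∫₀^∞ S`, `b = ∫₀^∞ e^{-t} S`, `d = ∫₀^∞ v e^{-v} S`.
Also contains the "triangle" Fubini lemma and a generic symmetrisation inequality.
-/

set_option autoImplicit false

open MeasureTheory Set

namespace Crest.Agent.Helper56

/-- Translation of a half-line integral. -/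
theorem integral_Ioi_comp_add (G : ℝ → ℝ) (x : ℝ) :
    ∫ T in Ioi (0:ℝ), G (T + x) = ∫ v in Ioi x, G v := by
  rw [← integral_indicator measurableSet_Ioi, ← integral_indicator measurableSet_Ioi]
  rw [← integral_add_right_eq_self (fun v => (Ioi x).indicator G v) x]
  congr 1
  ext T
  by_cases hT : 0 < T
  · have : T + x ∈ Ioi x := by simp [hT]
    rw [indicator_of_mem (mem_Ioi.2 hT), indicator_of_mem this]
  · have : T + x ∉ Ioi x := by simp [hT]
    rw [indicator_of_notMem (by simpa using hT), indicator_of_notMem this]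

/-- Pointwise form of the inner integral in the triangle lemma. -/
theorem triangle_inner (ψ G : ℝ → ℝ) (x : ℝ) (hx : 0 ≤ x) :
    ψ x * ∫ T in Ioi (0:ℝ), G (T + x)
      = ∫ v in Ioi (0:ℝ), (if x < v then ψ x * G v else 0) := by
  rw [integral_Ioi_comp_add, ← integral_const_mul]
  have h1 : (fun v => if x < v then ψ x * G v else 0)
      = (Ioi x).indicator (fun v => ψ x * G v) := by
    ext v
    by_cases hv : x < v
    · rw [indicator_of_mem (mem_Ioi.2 hv), if_pos hv]
    · rw [indicator_of_notMem (by simpa using hv), if_neg hv]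
  rw [h1, setIntegral_indicator measurableSet_Ioi]
  congr 2
  ext v
  simp only [mem_inter_iff, mem_Ioi]
  constructor
  · intro h; exact ⟨lt_of_le_of_lt hx h, h⟩
  · intro h; exact h.2

/-- Triangle (Fubini) lemma on the quadrant. -/
theorem triangle (ψ G : ℝ → ℝ)
    (hint : Integrable (fun z : ℝ × ℝ => if z.1 < z.2 then ψ z.1 * G z.2 else 0)
      ((volume.restrict (Ioi (0:ℝ))).prod (volume.restrict (Ioi (0:ℝ))))) :
    IntegrableOn (fun x => ψ x * ∫ T in Ioi (0:ℝ), G (T + x)) (Ioi 0) ∧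
    ∫ x in Ioi (0:ℝ), ψ x * ∫ T in Ioi (0:ℝ), G (T + x)
      = ∫ v in Ioi (0:ℝ), G v * ∫ x in Ioo (0:ℝ) v, ψ x := by
  have key : ∀ x ∈ Ioi (0:ℝ), (∫ v in Ioi (0:ℝ), (if x < v then ψ x * G v else 0))
      = ψ x * ∫ T in Ioi (0:ℝ), G (T + x) := fun x hx =>
    (triangle_inner ψ G x (le_of_lt hx)).symm
  constructor
  · have h := hint.integral_prod_left
    exact IntegrableOn.congr_fun h key measurableSet_Ioi
  · rw [← setIntegral_congr_fun measurableSet_Ioi key]
    have hsw := integral_integral_swap (f := fun x v => if x < v then ψ x * G v else 0)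
      (μ := volume.restrict (Ioi (0:ℝ))) (ν := volume.restrict (Ioi (0:ℝ))) hint
    rw [hsw]
    apply setIntegral_congr_fun measurableSet_Ioi
    intro v hv
    have h1 : (fun x => if x < v then ψ x * G v else 0)
        = (Iio v).indicator (fun x => ψ x * G v) := by
      ext x
      by_cases hxv : x < v
      · rw [indicator_of_mem (mem_Iio.2 hxv), if_pos hxv]
      · rw [indicator_of_notMem (by simpa using hxv), if_neg hxv]
    show ∫ x in Ioi (0:ℝ), (fun x => if x < v then ψ x * G v else 0) x = _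
    rw [h1, setIntegral_indicator measurableSet_Iio, integral_mul_const, mul_comm]
    congr 2

/-- Generic symmetrisation (Chebyshev-type) inequality. -/
theorem symm_ineq {α : Type*} [MeasurableSpace α] (μ : Measure α) [SFinite μ]
    (u w φ : α → ℝ)
    (hu : Integrable u μ) (hw : Integrable w μ)
    (hφu : Integrable (fun t => φ t * u t) μ) (hφw : Integrable (fun t => φ t * w t) μ)
    (hpt : ∀ σ T, 0 ≤ (φ T - φ σ) * (u σ * w T - u T * w σ)) :
    (∫ t, φ t * u t ∂μ) * (∫ t, w t ∂μ) ≤ (∫ t, u t ∂μ) * (∫ t, φ t * w t ∂μ) := by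
  have i1 : Integrable (fun z : α × α => u z.1 * (φ z.2 * w z.2)) (μ.prod μ) := hu.mul_prod hφw
  have i2 : Integrable (fun z : α × α => w z.1 * (φ z.2 * u z.2)) (μ.prod μ) := hw.mul_prod hφu
  have i3 : Integrable (fun z : α × α => (φ z.1 * u z.1) * w z.2) (μ.prod μ) := hφu.mul_prod hw
  have i4 : Integrable (fun z : α × α => (φ z.1 * w z.1) * u z.2) (μ.prod μ) := hφw.mul_prod hu
  have e1 := integral_prod_mul (μ := μ) (ν := μ) u (fun t => φ t * w t)
  have e2 := integral_prod_mul (μ := μ) (ν := μ) w (fun t => φ t * u t)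
  have e3 := integral_prod_mul (μ := μ) (ν := μ) (fun t => φ t * u t) w
  have e4 := integral_prod_mul (μ := μ) (ν := μ) (fun t => φ t * w t) u
  have hnn : 0 ≤ ∫ z : α × α, (φ z.2 - φ z.1) * (u z.1 * w z.2 - u z.2 * w z.1) ∂(μ.prod μ) :=
    integral_nonneg (fun z => hpt z.1 z.2)
  have hexp : (fun z : α × α => (φ z.2 - φ z.1) * (u z.1 * w z.2 - u z.2 * w z.1))
      = fun z : α × α => ((u z.1 * (φ z.2 * w z.2) - w z.1 * (φ z.2 * u z.2))
          - (φ z.1 * u z.1) * w z.2) + (φ z.1 * w z.1) * u z.2 := by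
    ext z; ring
  have hI := integral_add ((i1.sub i2).sub i3) i4
  have hI2 := integral_sub (i1.sub i2) i3
  have hI3 := integral_sub i1 i2
  simp only [Pi.sub_apply] at hI hI2 hI3
  rw [hexp, hI, hI2, hI3, e1, e2, e3, e4] at hnn
  nlinarith

theorem integral_Ioo_exp_neg (v : ℝ) (hv : 0 ≤ v) :
    ∫ x in Ioo (0:ℝ) v, Real.exp (-x) = 1 - Real.exp (-v) := by
  rw [← integral_Ioc_eq_integral_Ioo, ← intervalIntegral.integral_of_le hv]
  have hd : ∀ x ∈ Set.uIcc (0:ℝ) v, HasDerivAt (fun x => -Real.exp (-x)) (Real.exp (-x)) x := by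
    intro x _
    have h1 : HasDerivAt (fun y : ℝ => -y) (-1) x := hasDerivAt_neg x
    have h2 : HasDerivAt (fun y : ℝ => Real.exp (-y)) (Real.exp (-x) * (-1)) x :=
      (Real.hasDerivAt_exp (-x)).comp x h1
    have h3 : HasDerivAt (fun y : ℝ => -Real.exp (-y)) (-(Real.exp (-x) * (-1))) x := h2.neg
    have e : Real.exp (-x) = -(Real.exp (-x) * (-1)) := by ring
    rw [e]
    exact h3
  rw [intervalIntegral.integral_eq_sub_of_hasDerivAt hd]
  · simp; ring
  · exact (Real.continuous_exp.comp continuous_neg).intervalIntegrable _ _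

theorem integral_Ioo_one (v : ℝ) (hv : 0 ≤ v) :
    ∫ _ in Ioo (0:ℝ) v, (1:ℝ) = v := by
  rw [setIntegral_const, Real.volume_real_Ioo_of_le hv]
  simp

/-- `e^{-t} S t` is integrable on the half-line. -/
theorem integrableOn_exp_mul (S : ℝ → ℝ) (hmeas : Measurable S) (h0 : ∀ v, 0 ≤ S v)
    (hS : IntegrableOn S (Ioi 0)) : IntegrableOn (fun t => Real.exp (-t) * S t) (Ioi 0) := by
  have hmexp : Measurable (fun t : ℝ => Real.exp (-t)) := Real.measurable_exp.comp measurable_neg
  refine Integrable.mono' hS (hmexp.mul hmeas).aestronglyMeasurable ?_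
  refine (ae_restrict_iff' measurableSet_Ioi).2 (Filter.Eventually.of_forall fun t ht => ?_)
  rw [Real.norm_eq_abs, abs_of_nonneg (mul_nonneg (Real.exp_pos _).le (h0 t))]
  have : Real.exp (-t) ≤ 1 := by rw [Real.exp_le_one_iff]; linarith [mem_Ioi.1 ht]
  calc Real.exp (-t) * S t ≤ 1 * S t := mul_le_mul_of_nonneg_right this (h0 t)
    _ = S t := one_mul _

/-- `∫₀^∞ e^{-x} (∫_x^∞ S) dx = a - b`. -/
theorem tail_identity (S : ℝ → ℝ) (hmeas : Measurable S) (h0 : ∀ v, 0 ≤ S v)
    (hS : IntegrableOn S (Ioi 0)) :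
    IntegrableOn (fun x => Real.exp (-x) * ∫ T in Ioi (0:ℝ), S (T + x)) (Ioi 0) ∧
    ∫ x in Ioi (0:ℝ), Real.exp (-x) * ∫ T in Ioi (0:ℝ), S (T + x)
      = (∫ t in Ioi (0:ℝ), S t) - ∫ t in Ioi (0:ℝ), Real.exp (-t) * S t := by
  have hmexp : Measurable (fun t : ℝ => Real.exp (-t)) := Real.measurable_exp.comp measurable_neg
  have hexpS := integrableOn_exp_mul S hmeas h0 hS
  have hmlt : MeasurableSet {z : ℝ × ℝ | z.1 < z.2} := measurableSet_lt measurable_fst measurable_snd
  have hexpI : IntegrableOn (fun t : ℝ => Real.exp (-t)) (Ioi 0) := by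
    have := exp_neg_integrableOn_Ioi 0 (b := 1) one_pos
    simpa using this
  have tri1 : Integrable (fun z : ℝ × ℝ => if z.1 < z.2 then Real.exp (-z.1) * S z.2 else 0)
      ((volume.restrict (Ioi (0:ℝ))).prod (volume.restrict (Ioi (0:ℝ)))) := by
    have hdom : Integrable (fun z : ℝ × ℝ => Real.exp (-z.1) * S z.2)
        ((volume.restrict (Ioi (0:ℝ))).prod (volume.restrict (Ioi (0:ℝ)))) :=
      Integrable.mul_prod hexpI hS
    refine Integrable.mono' hdom ?_ (Filter.Eventually.of_forall fun z => ?_)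
    · exact (Measurable.ite hmlt ((hmexp.comp measurable_fst).mul (hmeas.comp measurable_snd))
        measurable_const).aestronglyMeasurable
    · have hnn : 0 ≤ Real.exp (-z.1) * S z.2 := mul_nonneg (Real.exp_pos _).le (h0 _)
      by_cases hz : z.1 < z.2
      · simp only [hz, if_true]
        rw [Real.norm_eq_abs, abs_of_nonneg hnn]
      · simp only [hz, if_false, norm_zero]
        exact hnn
  obtain ⟨I1, E1⟩ := triangle (fun x => Real.exp (-x)) S tri1
  refine ⟨I1, ?_⟩
  rw [E1, ← integral_sub hS hexpS]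
  apply setIntegral_congr_fun measurableSet_Ioi
  intro v hv
  show S v * ∫ x in Ioo (0:ℝ) v, Real.exp (-x) = S v - Real.exp (-v) * S v
  rw [integral_Ioo_exp_neg v (le_of_lt hv)]
  ring

/-- **Fact (5)**: `p (a - b) ≤ a b` with `p = S 0`. -/
theorem fact5 (S : ℝ → ℝ) (hmeas : Measurable S) (hanti : Antitone S) (h0 : ∀ v, 0 ≤ S v)
    (h4 : ∀ x y h : ℝ, x ≤ y → 0 ≤ h → S x * S (y + h) ≤ S (x + h) * S y)
    (hS : IntegrableOn S (Ioi 0)) :
    S 0 * ((∫ t in Ioi (0:ℝ), S t) - ∫ t in Ioi (0:ℝ), Real.exp (-t) * S t)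
      ≤ (∫ t in Ioi (0:ℝ), S t) * ∫ t in Ioi (0:ℝ), Real.exp (-t) * S t := by
  obtain ⟨I1, E1⟩ := tail_identity S hmeas h0 hS
  have hexpS := integrableOn_exp_mul S hmeas h0 hS
  rw [← E1, ← integral_const_mul, ← integral_const_mul]
  refine setIntegral_mono_on (I1.const_mul _) (hexpS.const_mul _) measurableSet_Ioi ?_
  intro x hx
  have hx0 : 0 ≤ x := le_of_lt hx
  have hw : IntegrableOn (fun T => S (T + x)) (Ioi 0) := by
    refine Integrable.mono' hS (hmeas.comp (measurable_id.add_const x)).aestronglyMeasurable ?_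
    refine Filter.Eventually.of_forall fun T => ?_
    rw [Real.norm_eq_abs, abs_of_nonneg (h0 _)]
    exact hanti (by linarith)
  have hle : S 0 * ∫ T in Ioi (0:ℝ), S (T + x) ≤ S x * ∫ T in Ioi (0:ℝ), S T := by
    rw [← integral_const_mul, ← integral_const_mul]
    refine setIntegral_mono_on (hw.const_mul _) (hS.const_mul _) measurableSet_Ioi ?_
    intro T hT
    have := h4 0 T x (le_of_lt hT) hx0
    rw [zero_add] at this
    exact this
  have hexp : 0 ≤ Real.exp (-x) := (Real.exp_pos _).le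
  calc S 0 * (Real.exp (-x) * ∫ T in Ioi (0:ℝ), S (T + x))
      = Real.exp (-x) * (S 0 * ∫ T in Ioi (0:ℝ), S (T + x)) := by ring
    _ ≤ Real.exp (-x) * (S x * ∫ T in Ioi (0:ℝ), S T) := mul_le_mul_of_nonneg_left hle hexp
    _ = (∫ t in Ioi (0:ℝ), S t) * (Real.exp (-x) * S x) := by ring

/-- **Fact (2)**: `b (a - b) ≤ a d`. -/
theorem fact2 (S : ℝ → ℝ) (hmeas : Measurable S) (hanti : Antitone S) (h0 : ∀ v, 0 ≤ S v)
    (h1 : ∀ v, S v ≤ 1)
    (h4 : ∀ x y h : ℝ, x ≤ y → 0 ≤ h → S x * S (y + h) ≤ S (x + h) * S y)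
    (hS : IntegrableOn S (Ioi 0)) :
    (∫ t in Ioi (0:ℝ), Real.exp (-t) * S t) *
        ((∫ t in Ioi (0:ℝ), S t) - ∫ t in Ioi (0:ℝ), Real.exp (-t) * S t)
      ≤ (∫ t in Ioi (0:ℝ), S t) * ∫ v in Ioi (0:ℝ), v * Real.exp (-v) * S v := by
  set μ := volume.restrict (Ioi (0:ℝ)) with hμ
  set a := ∫ t in Ioi (0:ℝ), S t with ha
  set b := ∫ t in Ioi (0:ℝ), Real.exp (-t) * S t with hb
  have hmexp : Measurable (fun t : ℝ => Real.exp (-t)) := Real.measurable_exp.comp measurable_neg
  -- integrability facts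
  have hexpS : IntegrableOn (fun t => Real.exp (-t) * S t) (Ioi 0) := by
    refine Integrable.mono' hS (hmexp.mul hmeas).aestronglyMeasurable ?_
    refine (ae_restrict_iff' measurableSet_Ioi).2 (Filter.Eventually.of_forall fun t ht => ?_)
    rw [Real.norm_eq_abs, abs_of_nonneg (mul_nonneg (Real.exp_pos _).le (h0 t))]
    have : Real.exp (-t) ≤ 1 := by rw [Real.exp_le_one_iff]; linarith [mem_Ioi.1 ht]
    calc Real.exp (-t) * S t ≤ 1 * S t := mul_le_mul_of_nonneg_right this (h0 t)
      _ = S t := one_mul _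
  -- per-x inequality
  have step : ∀ x ∈ Ioi (0:ℝ), b * (Real.exp (-x) * ∫ T in Ioi (0:ℝ), S (T + x))
      ≤ a * ((1:ℝ) * ∫ T in Ioi (0:ℝ), Real.exp (-(T + x)) * S (T + x)) := by
    intro x hx
    have hx0 : 0 ≤ x := le_of_lt hx
    have hw : IntegrableOn (fun T => S (T + x)) (Ioi 0) := by
      refine Integrable.mono' hS (hmeas.comp (measurable_id.add_const x)).aestronglyMeasurable ?_
      refine Filter.Eventually.of_forall fun T => ?_
      rw [Real.norm_eq_abs, abs_of_nonneg (h0 _)]
      exact hanti (by linarith)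
    have hφw : IntegrableOn (fun T => Real.exp (-T) * S (T + x)) (Ioi 0) := by
      refine Integrable.mono' hw
        (hmexp.mul (hmeas.comp (measurable_id.add_const x))).aestronglyMeasurable ?_
      refine (ae_restrict_iff' measurableSet_Ioi).2 (Filter.Eventually.of_forall fun t ht => ?_)
      rw [Real.norm_eq_abs, abs_of_nonneg (mul_nonneg (Real.exp_pos _).le (h0 _))]
      have : Real.exp (-t) ≤ 1 := by rw [Real.exp_le_one_iff]; linarith [mem_Ioi.1 ht]
      calc Real.exp (-t) * S (t + x) ≤ 1 * S (t + x) := mul_le_mul_of_nonneg_right this (h0 _)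
        _ = S (t + x) := one_mul _
    have hsym := symm_ineq μ S (fun T => S (T + x)) (fun T => Real.exp (-T)) hS hw hexpS hφw ?_
    · have e1 : ∫ T in Ioi (0:ℝ), Real.exp (-(T + x)) * S (T + x)
          = Real.exp (-x) * ∫ T in Ioi (0:ℝ), Real.exp (-T) * S (T + x) := by
        rw [← integral_const_mul]
        congr 1
        ext T
        rw [neg_add, Real.exp_add]
        ring
      rw [e1, one_mul]
      have hexp : 0 ≤ Real.exp (-x) := (Real.exp_pos _).le
      have := mul_le_mul_of_nonneg_left hsym hexp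
      calc b * (Real.exp (-x) * ∫ T in Ioi (0:ℝ), S (T + x))
          = Real.exp (-x) * (b * ∫ T in Ioi (0:ℝ), S (T + x)) := by ring
        _ ≤ Real.exp (-x) * (a * ∫ T in Ioi (0:ℝ), Real.exp (-T) * S (T + x)) := this
        _ = a * (Real.exp (-x) * ∫ T in Ioi (0:ℝ), Real.exp (-T) * S (T + x)) := by ring
    · intro σ T
      rcases le_total σ T with hσT | hσT
      · have hA : Real.exp (-T) - Real.exp (-σ) ≤ 0 := by
          have : Real.exp (-T) ≤ Real.exp (-σ) := Real.exp_le_exp.2 (by linarith)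
          linarith
        have hB : S σ * S (T + x) - S T * S (σ + x) ≤ 0 := by
          have := h4 σ T x hσT hx0
          linarith
        exact mul_nonneg_of_nonpos_of_nonpos hA hB
      · have hA : 0 ≤ Real.exp (-T) - Real.exp (-σ) := by
          have : Real.exp (-σ) ≤ Real.exp (-T) := Real.exp_le_exp.2 (by linarith)
          linarith
        have hB : 0 ≤ S σ * S (T + x) - S T * S (σ + x) := by
          have := h4 T σ x hσT hx0
          linarith
        exact mul_nonneg hA hB
  -- product integrability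
  have hmlt : MeasurableSet {z : ℝ × ℝ | z.1 < z.2} := measurableSet_lt measurable_fst measurable_snd
  have hexpI : IntegrableOn (fun t : ℝ => Real.exp (-t)) (Ioi 0) := by
    have := exp_neg_integrableOn_Ioi 0 (b := 1) one_pos
    simpa using this
  have hexpI2 : IntegrableOn (fun t : ℝ => Real.exp (-(1/2) * t)) (Ioi 0) :=
    exp_neg_integrableOn_Ioi 0 (b := 1/2) (by norm_num)
  have tri1 : Integrable (fun z : ℝ × ℝ => if z.1 < z.2 then Real.exp (-z.1) * S z.2 else 0)
      (μ.prod μ) := by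
    have hdom : Integrable (fun z : ℝ × ℝ => Real.exp (-z.1) * S z.2) (μ.prod μ) :=
      Integrable.mul_prod hexpI hS
    refine Integrable.mono' hdom ?_ (Filter.Eventually.of_forall fun z => ?_)
    · exact (Measurable.ite hmlt ((hmexp.comp measurable_fst).mul (hmeas.comp measurable_snd))
        measurable_const).aestronglyMeasurable
    · have hnn : 0 ≤ Real.exp (-z.1) * S z.2 := mul_nonneg (Real.exp_pos _).le (h0 _)
      by_cases hz : z.1 < z.2
      · simp only [hz, if_true]
        rw [Real.norm_eq_abs, abs_of_nonneg hnn]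
      · simp only [hz, if_false, norm_zero]
        exact hnn
  have tri2 : Integrable (fun z : ℝ × ℝ => if z.1 < z.2 then (fun _ : ℝ => (1:ℝ)) z.1 *
      (fun v => Real.exp (-v) * S v) z.2 else 0) (μ.prod μ) := by
    have hdom : Integrable (fun z : ℝ × ℝ => Real.exp (-(1/2) * z.1) * Real.exp (-(1/2) * z.2))
        (μ.prod μ) := Integrable.mul_prod hexpI2 hexpI2
    refine Integrable.mono' hdom ?_ (Filter.Eventually.of_forall fun z => ?_)
    · exact (Measurable.ite hmlt (measurable_const.mul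
        ((hmexp.comp measurable_snd).mul (hmeas.comp measurable_snd)))
        measurable_const).aestronglyMeasurable
    · have hnn : 0 ≤ Real.exp (-(1/2) * z.1) * Real.exp (-(1/2) * z.2) :=
        mul_nonneg (Real.exp_pos _).le (Real.exp_pos _).le
      by_cases hz : z.1 < z.2
      · simp only [hz, if_true, one_mul]
        rw [Real.norm_eq_abs, abs_of_nonneg (mul_nonneg (Real.exp_pos _).le (h0 _))]
        calc Real.exp (-z.2) * S z.2 ≤ Real.exp (-z.2) * 1 :=
              mul_le_mul_of_nonneg_left (h1 _) (Real.exp_pos _).le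
          _ = Real.exp (-z.2) := mul_one _
          _ ≤ Real.exp (-(1/2) * z.1 + -(1/2) * z.2) := Real.exp_le_exp.2 (by linarith)
          _ = Real.exp (-(1/2) * z.1) * Real.exp (-(1/2) * z.2) := Real.exp_add _ _
      · simp only [hz, if_false, norm_zero]
        exact hnn
  obtain ⟨I1, E1⟩ := triangle (fun x => Real.exp (-x)) S tri1
  obtain ⟨I2, E2⟩ := triangle (fun _ => (1:ℝ)) (fun v => Real.exp (-v) * S v) tri2
  have hmono := setIntegral_mono_on (I1.const_mul b) (I2.const_mul a) measurableSet_Ioi step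
  rw [integral_const_mul, integral_const_mul, E1, E2] at hmono
  have e3 : ∫ v in Ioi (0:ℝ), S v * ∫ x in Ioo (0:ℝ) v, Real.exp (-x) = a - b := by
    rw [ha, hb, ← integral_sub hS hexpS]
    apply setIntegral_congr_fun measurableSet_Ioi
    intro v hv
    show S v * ∫ x in Ioo (0:ℝ) v, Real.exp (-x) = S v - Real.exp (-v) * S v
    rw [integral_Ioo_exp_neg v (le_of_lt hv)]
    ring
  have e4 : ∫ v in Ioi (0:ℝ), Real.exp (-v) * S v * ∫ _ in Ioo (0:ℝ) v, (1:ℝ)
      = ∫ v in Ioi (0:ℝ), v * Real.exp (-v) * S v := by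
    apply setIntegral_congr_fun measurableSet_Ioi
    intro v hv
    show Real.exp (-v) * S v * ∫ _ in Ioo (0:ℝ) v, (1:ℝ) = v * Real.exp (-v) * S v
    rw [integral_Ioo_one v (le_of_lt hv)]
    ring
  rw [e3, e4] at hmono
  exact hmono

end Crest.Agent.Helper56
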